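import Vale.Agent.Results.P068.AlmostNestedBases
import Vale.Agent.Results.P068.WalkCriterion

/-!
Matroid intersection for infinite matroids: the results of this folder in one statement.
-/

namespace Vale.Agent.Results.P068.AAllResults

open Vale.Agent.Lib.P068

/-- For arbitrary matroids `M`, `N` on a common ground set:
(1) if a base of one lies in a base of the other up to finitely many elements, then `(M, N)`
satisfies intersection;
(2) this holds in particular if one of them has finite rank or finite corank;
(3) `(M, N)` satisfies intersection if and only if some common independent set has no augmenting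
walk;
(4) a common independent set with an augmenting walk can be augmented. -/
theorem result {α : Type*} (M N : Matroid α) (hE : M.E = N.E) :
    (∀ B B' : Set α, M.IsBase B → N.IsBase B' → ((B \ B').Finite ∨ (B' \ B).Finite) →
      SatisfiesIntersection M N) ∧
    ((M.RankFinite ∨ M✶.RankFinite ∨ N.RankFinite ∨ N✶.RankFinite) →
      SatisfiesIntersection M N) ∧
    (SatisfiesIntersection M N ↔
      ∃ J : Set α, M.Indep J ∧ N.Indep J ∧ ¬ HasAugmentingWalk M N J) ∧
    (∀ J : Set α, M.Indep J → N.Indep J → HasAugmentingWalk M N J →
      ∃ J' : Set α, M.Indep J' ∧ N.Indep J' ∧
        ∃ e ∈ M.E \ M.closure J, M.closure J' = M.closure (insert e J)) :=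
  ⟨(AlmostNestedBases.result M N hE).1, (AlmostNestedBases.result M N hE).2,
    (WalkCriterion.result M N hE).1, (WalkCriterion.result M N hE).2⟩

end Vale.Agent.Results.P068.AAllResults
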